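import Mathlib
import Vale.Agent.H23.Tot.A

/-!
P031: the Erdős–Hall question `V(cx)/V(x) → c` depends only on two ratios, and is equivalent to
the existence of the relative densities of `2𝒱` and `6𝒱` in the set `𝒱` of totient values.
-/

namespace Vale.Agent.Results.P031.TwoRatios

open Filter Topology

/-- The set of values of Euler's function. -/
def totients : Set ℕ := {v : ℕ | ∃ n : ℕ, 0 < n ∧ Nat.totient n = v}

/-- The number of elements `v ≤ x` of a set `S` of natural numbers. -/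
noncomputable def upTo (S : Set ℕ) (x : ℝ) : ℕ := {v : ℕ | v ∈ S ∧ (v : ℝ) ≤ x}.ncard

/-- The number of totient values up to `x`. -/
noncomputable def V (x : ℝ) : ℕ := upTo totients x

/-- The ratio `V(cx)/V(x)` converges to `L` as `x → ∞`. -/
def RatioLim (c L : ℝ) : Prop := Tendsto (fun x => (V (c * x) : ℝ) / V x) atTop (𝓝 L)

/-- The Erdős–Hall conjecture (question Q2): `V(cx)/V(x) → c` for every real `c > 1`. -/
def ErdosHall : Prop := ∀ c : ℝ, 1 < c → RatioLim c c

/-- The set `k𝒱` of the multiples `k v` of totient values `v`. -/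
def multiples (k : ℕ) : Set ℕ := {w : ℕ | ∃ v ∈ totients, w = k * v}

/-- The set `S` has relative density `d` in the set of totient values. -/
def RelDensity (S : Set ℕ) (d : ℝ) : Prop :=
  Tendsto (fun x => (upTo S x : ℝ) / V x) atTop (𝓝 d)

lemma V_eq (x : ℝ) : V x = Vale.Agent.H23.Tot.V x := rfl

lemma upTo_multiples {k : ℕ} (hk : 0 < k) (x : ℝ) : upTo (multiples k) x = V ((k : ℝ)⁻¹ * x) := by
  have hk' : (0 : ℝ) < k := by exact_mod_cast hk
  have h1 : {w : ℕ | w ∈ multiples k ∧ (w : ℝ) ≤ x} =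
      (fun v => k * v) '' {v : ℕ | v ∈ totients ∧ (v : ℝ) ≤ (k : ℝ)⁻¹ * x} := by
    ext w
    constructor
    · rintro ⟨⟨v, hv, rfl⟩, hw⟩
      refine ⟨v, ⟨hv, ?_⟩, rfl⟩
      push_cast at hw
      rw [inv_mul_eq_div, le_div_iff₀ hk']
      linarith
    · rintro ⟨v, ⟨hv, hvx⟩, rfl⟩
      refine ⟨⟨v, hv, rfl⟩, ?_⟩
      rw [inv_mul_eq_div, le_div_iff₀ hk'] at hvx
      push_cast
      linarith
  show {w : ℕ | w ∈ multiples k ∧ (w : ℝ) ≤ x}.ncard = _
  rw [h1]
  have hinj : Function.Injective (fun v : ℕ => k * v) := fun a b h => Nat.eq_of_mul_eq_mul_left hk h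
  exact hinj.injOn.ncard_image

lemma two_mul_mem {v : ℕ} (hv : v ∈ totients) : 2 * v ∈ totients := by
  obtain ⟨n, hn, rfl⟩ := hv
  by_cases h : 2 ∣ n
  · exact ⟨2 * n, by omega, Nat.totient_mul_of_prime_of_dvd Nat.prime_two h⟩
  · refine ⟨2 * (2 * n), by omega, ?_⟩
    rw [Nat.totient_mul_of_prime_of_dvd Nat.prime_two (Dvd.intro _ rfl),
      Nat.totient_mul_of_prime_of_not_dvd Nat.prime_two h]
    simp

lemma six_mul_mem {v : ℕ} (hv : v ∈ totients) : 6 * v ∈ totients := by
  obtain ⟨n, hn, rfl⟩ := hv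
  by_cases h : 3 ∣ n
  · have h1 : 3 * Nat.totient n ∈ totients :=
      ⟨3 * n, by omega, Nat.totient_mul_of_prime_of_dvd Nat.prime_three h⟩
    have h2 := two_mul_mem h1
    rwa [← mul_assoc] at h2
  · refine ⟨3 * (3 * n), by omega, ?_⟩
    rw [Nat.totient_mul_of_prime_of_dvd Nat.prime_three (Dvd.intro _ rfl),
      Nat.totient_mul_of_prime_of_not_dvd Nat.prime_three h]
    norm_num
    ring

lemma two_ratios {a b : ℝ} (ha : 1 < a) (hb : 1 < b)
    (hirr : Irrational (Real.log a / Real.log b)) (h1 : ∃ L, RatioLim a L)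
    (h2 : ∃ L, RatioLim b L) : ErdosHall := by
  obtain ⟨L, hL⟩ := h1
  obtain ⟨M, hM⟩ := h2
  have e1 : L = a := Vale.Agent.H23.Tot.lim_eq ha hL
  have e2 : M = b := Vale.Agent.H23.Tot.lim_eq hb hM
  subst e1 e2
  intro c hc
  exact Vale.Agent.H23.Tot.all_good (by linarith) (by linarith) hirr hL hM (by linarith)

lemma ratio_of_density {k : ℕ} (hk : 1 < k) {d : ℝ} (h : RelDensity (multiples k) d) :
    ∃ L, RatioLim k L := by
  have hk' : (0 : ℝ) < k := by exact_mod_cast (by omega : 0 < k)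
  have hk1 : (1 : ℝ) < k := by exact_mod_cast hk
  have h1 : Tendsto (fun x : ℝ => (V ((k : ℝ)⁻¹ * (k * x)) : ℝ) / V (k * x)) atTop (𝓝 d) := by
    have h2 : Tendsto (fun x : ℝ => (k : ℝ) * x) atTop atTop := tendsto_id.const_mul_atTop hk'
    have h3 := h.comp h2
    apply h3.congr
    intro x
    simp only [Function.comp]
    rw [upTo_multiples (by omega)]
  have h2 : Tendsto (fun x : ℝ => (V x : ℝ) / V (k * x)) atTop (𝓝 d) := by
    apply h1.congr
    intro x
    rw [inv_mul_cancel_left₀ hk'.ne']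
  have hd : 0 < d := by
    by_contra hd
    push Not at hd
    have hpos : (0 : ℝ) < 1 / (k + 1) := by positivity
    have h3 := h2.eventually_lt_const (hd.trans_lt hpos)
    refine Vale.Agent.H23.Tot.upper hk1 (show (k : ℝ) < k + 1 by linarith) ?_
    filter_upwards [h3, eventually_ge_atTop 1] with x hx hx1
    have hv1 : (0 : ℝ) < V x := by exact_mod_cast Vale.Agent.H23.Tot.V_pos hx1
    have hv2 : (0 : ℝ) < V (k * x) := by
      exact_mod_cast Vale.Agent.H23.Tot.V_pos (by nlinarith)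
    rw [div_lt_div_iff₀ hv2 (by positivity)] at hx
    show (k : ℝ) + 1 ≤ (V (k * x) : ℝ) / V x
    rw [le_div_iff₀ hv1]
    linarith
  refine ⟨d⁻¹, ?_⟩
  have h4 := h2.inv₀ hd.ne'
  apply h4.congr
  intro x
  rw [inv_div]

lemma density_of_good {k : ℕ} (hk : 1 < k) (h : ErdosHall) :
    RelDensity (multiples k) (k : ℝ)⁻¹ := by
  have hk' : (0 : ℝ) < k := by exact_mod_cast (by omega : 0 < k)
  have h1 : Vale.Agent.H23.Tot.Good (k : ℝ) := h k (by exact_mod_cast hk)
  have h2 := Vale.Agent.H23.Tot.good_inv hk' h1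
  unfold RelDensity
  apply h2.congr
  intro x
  rw [upTo_multiples (by omega)]
  rfl

/-- (1) For every real `c > 1`: if `V(cx)/V(x)` converges then its limit is `c`; and without any
assumption `liminf V(cx)/V(x) ≤ c ≤ limsup V(cx)/V(x)`.
(2) If `a, b > 1` are multiplicatively independent and `V(ax)/V(x)`, `V(bx)/V(x)` both converge,
then the Erdős–Hall conjecture holds; so it is equivalent to the convergence of these ratios for
`2` and `3`.
(3) `2𝒱` and `6𝒱` are subsets of `𝒱`, and the Erdős–Hall conjecture holds if and only if both have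
a relative density in `𝒱` (which then is `1/2` and `1/6`). -/
theorem result :
    (∀ c : ℝ, 1 < c → (∀ L : ℝ, RatioLim c L → L = c) ∧
      (∀ ε : ℝ, 0 < ε → (∃ᶠ x in atTop, (V (c * x) : ℝ) / V x < c + ε) ∧
        ∃ᶠ x in atTop, c - ε < (V (c * x) : ℝ) / V x)) ∧
    (∀ a b : ℝ, 1 < a → 1 < b → Irrational (Real.log a / Real.log b) →
      (∃ L, RatioLim a L) → (∃ L, RatioLim b L) → ErdosHall) ∧
    (ErdosHall ↔ (∃ L, RatioLim 2 L) ∧ ∃ L, RatioLim 3 L) ∧
    (multiples 2 ⊆ totients ∧ multiples 6 ⊆ totients) ∧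
    (ErdosHall ↔ (∃ d, RelDensity (multiples 2) d) ∧ ∃ d, RelDensity (multiples 6) d) ∧
    (ErdosHall → RelDensity (multiples 2) (1 / 2) ∧ RelDensity (multiples 6) (1 / 6)) := by
  refine ⟨?_, fun a b ha hb hirr h1 h2 => two_ratios ha hb hirr h1 h2, ?_, ⟨?_, ?_⟩, ?_, ?_⟩
  · intro c hc
    refine ⟨fun L hL => Vale.Agent.H23.Tot.lim_eq hc hL, fun ε hε => ⟨?_, ?_⟩⟩
    · have h := Vale.Agent.H23.Tot.upper hc (show c < c + ε by linarith)
      rw [Filter.not_eventually] at h
      exact h.mono fun x hx => not_le.mp hx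
    · have h := Vale.Agent.H23.Tot.lower hc (show c - ε < c by linarith)
      rw [Filter.not_eventually] at h
      exact h.mono fun x hx => not_le.mp hx
  · constructor
    · intro h
      exact ⟨⟨2, h 2 (by norm_num)⟩, ⟨3, h 3 (by norm_num)⟩⟩
    · rintro ⟨h1, h2⟩
      exact two_ratios (by norm_num) (by norm_num) Vale.Agent.H23.Tot.irr3 h1 h2
  · rintro w ⟨v, hv, rfl⟩
    exact two_mul_mem hv
  · rintro w ⟨v, hv, rfl⟩
    exact six_mul_mem hv
  · constructor
    · intro h
      exact ⟨⟨_, density_of_good (by norm_num) h⟩, ⟨_, density_of_good (by norm_num) h⟩⟩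
    · rintro ⟨⟨d, h1⟩, ⟨e, h2⟩⟩
      have h3 := ratio_of_density (by norm_num) h1
      have h4 := ratio_of_density (by norm_num) h2
      push_cast at h3 h4
      exact two_ratios (by norm_num) (by norm_num) Vale.Agent.H23.Tot.irr6 h3 h4
  · intro h
    have h1 := density_of_good (k := 2) (by norm_num) h
    have h2 := density_of_good (k := 6) (by norm_num) h
    push_cast at h1 h2
    rw [one_div, one_div]
    exact ⟨h1, h2⟩

end Vale.Agent.Results.P031.TwoRatios
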